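import Mathlib

/-! Choice of a level and of at least half of its primes by averaging. -/

namespace Vale.Agent.P015.H586

open Finset

/-- Markov: at least half of the elements have a small value. -/
theorem half_small {ι : Type*} [DecidableEq ι] (P : Finset ι) (x : ι → ℝ)
    (hx : ∀ p ∈ P, 0 ≤ x p) (h : 2 * ∑ p ∈ P, x p ≤ P.card) :
    P.card ≤ 2 * (P.filter (fun p => x p ≤ 1)).card := by
  classical
  have h1 : ((P.filter (fun p => ¬ x p ≤ 1)).card : ℝ) ≤ ∑ p ∈ P, x p := by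
    calc ((P.filter (fun p => ¬ x p ≤ 1)).card : ℝ) = ∑ p ∈ P.filter (fun p => ¬ x p ≤ 1), (1 : ℝ) := by
          rw [Finset.sum_const, nsmul_eq_mul, mul_one]
      _ ≤ ∑ p ∈ P.filter (fun p => ¬ x p ≤ 1), x p := by
          refine Finset.sum_le_sum (fun p hp => ?_)
          have := (Finset.mem_filter.mp hp).2
          linarith [not_le.mp this]
      _ ≤ _ := Finset.sum_le_sum_of_subset_of_nonneg (Finset.filter_subset _ _)
          (fun p hp _ => hx p hp)
  have h2 := Finset.card_filter_add_card_filter_not (s := P) (fun p => x p ≤ 1)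
  have h3 : ((2 * (P.filter (fun p => ¬ x p ≤ 1)).card : ℕ) : ℝ) ≤ (P.card : ℝ) := by
    push_cast; linarith
  have h4 : 2 * (P.filter (fun p => ¬ x p ≤ 1)).card ≤ P.card := by exact_mod_cast h3
  omega

/-- **Level selection.** -/
theorem levsel {ι : Type*} [DecidableEq ι] (S : Finset ℕ) (w : ℕ → ℝ) (hw : ∀ k ∈ S, 0 ≤ w k)
    {θ : ℝ} (hθ : 0 < θ) (hS : θ ≤ ∑ k ∈ S, w k) (P : ℕ → Finset ι)
    (hP : ∀ k ∈ S, (P k).Nonempty) (x y : ℕ → ι → ℝ) (hx0 : ∀ k ∈ S, ∀ p ∈ P k, 0 ≤ x k p)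
    (hy0 : ∀ k ∈ S, ∀ p ∈ P k, 0 ≤ y k p) {s t : ℝ} (hs : 0 < s) (ht : 0 < t)
    (hx : 4 * ∑ k ∈ S, w k * ((∑ p ∈ P k, x k p) / (P k).card) ≤ θ * s)
    (hy : 4 * ∑ k ∈ S, w k * ((∑ p ∈ P k, y k p) / (P k).card) ≤ θ * t) :
    ∃ k ∈ S, ∃ P' ⊆ P k, (P k).card ≤ 2 * P'.card ∧ ∀ p ∈ P', x k p ≤ s ∧ y k p ≤ t := by
  classical
  by_contra hcon
  push Not at hcon
  have key : ∀ k ∈ S, (1 : ℝ) / 2 < (∑ p ∈ P k, (x k p / s + y k p / t)) / (P k).card := by
    intro k hk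
    by_contra hk2
    push Not at hk2
    have hc : (0 : ℝ) < (P k).card := by exact_mod_cast (hP k hk).card_pos
    rw [div_le_iff₀ hc] at hk2
    have h1 := half_small (P k) (fun p => x k p / s + y k p / t)
      (fun p hp => add_nonneg (div_nonneg (hx0 k hk p hp) hs.le) (div_nonneg (hy0 k hk p hp) ht.le))
      (by linarith)
    obtain ⟨p, hp, hp2⟩ := hcon k hk _ (Finset.filter_subset _ _) h1
    rw [Finset.mem_filter] at hp
    have hxp : 0 ≤ x k p / s := div_nonneg (hx0 k hk p hp.1) hs.le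
    have hyp : 0 ≤ y k p / t := div_nonneg (hy0 k hk p hp.1) ht.le
    have h2 : x k p / s ≤ 1 := by linarith [hp.2]
    have h3 : y k p / t ≤ 1 := by linarith [hp.2]
    rw [div_le_one hs] at h2
    rw [div_le_one ht] at h3
    linarith [hp2 h2]
  have hsum : ∑ k ∈ S, w k * ((∑ p ∈ P k, (x k p / s + y k p / t)) / (P k).card)
      = (∑ k ∈ S, w k * ((∑ p ∈ P k, x k p) / (P k).card)) / s
        + (∑ k ∈ S, w k * ((∑ p ∈ P k, y k p) / (P k).card)) / t := by
    rw [Finset.sum_div, Finset.sum_div, ← Finset.sum_add_distrib]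
    refine Finset.sum_congr rfl (fun k _ => ?_)
    rw [Finset.sum_add_distrib, ← Finset.sum_div, ← Finset.sum_div]
    ring
  have h1 : (∑ k ∈ S, w k * ((∑ p ∈ P k, x k p) / (P k).card)) / s ≤ θ / 4 := by
    rw [div_le_iff₀ hs]; linarith
  have h2 : (∑ k ∈ S, w k * ((∑ p ∈ P k, y k p) / (P k).card)) / t ≤ θ / 4 := by
    rw [div_le_iff₀ ht]; linarith
  have hpos : ∃ k ∈ S, 0 < w k := by
    by_contra h
    push Not at h
    have : ∑ k ∈ S, w k ≤ 0 := Finset.sum_nonpos h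
    linarith
  have h3 : ∑ k ∈ S, w k * (1 / 2) <
      ∑ k ∈ S, w k * ((∑ p ∈ P k, (x k p / s + y k p / t)) / (P k).card) := by
    refine Finset.sum_lt_sum (fun k hk => mul_le_mul_of_nonneg_left (key k hk).le (hw k hk)) ?_
    obtain ⟨k, hk, hk0⟩ := hpos
    exact ⟨k, hk, mul_lt_mul_of_pos_left (key k hk) hk0⟩
  rw [← Finset.sum_mul, hsum] at h3
  linarith

/-- `∑_{a ≤ k < b} 1 / k ≥ (b - a) / b`. -/
theorem sum_inv_ge {a b : ℕ} (ha : 1 ≤ a) (hab : a ≤ b) :
    ((b : ℝ) - a) / b ≤ ∑ k ∈ Ico a b, (1 : ℝ) / k := by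
  rcases Nat.eq_zero_or_pos b with hb | hb
  · omega
  have hb0 : (0 : ℝ) < b := by exact_mod_cast hb
  calc ((b : ℝ) - a) / b = ∑ k ∈ Ico a b, (1 : ℝ) / b := by
        rw [Finset.sum_const, Nat.card_Ico, nsmul_eq_mul, Nat.cast_sub hab]
        ring
    _ ≤ _ := by
        refine Finset.sum_le_sum (fun k hk => ?_)
        rw [Finset.mem_Ico] at hk
        have hk0 : (0 : ℝ) < k := by
          have : 0 < k := by omega
          exact_mod_cast this
        have hkb : (k : ℝ) ≤ b := by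
          have := hk.2.le
          exact_mod_cast this
        exact one_div_le_one_div_of_le hk0 hkb

end Vale.Agent.P015.H586
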