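import Vale.Agent.P015.R2.H222.Level

/-! Frostman bound from soft missing: a finite set on which, for many primes `p` of one level, a
nearly flat probability weight `q p` has at most half of its expected mass, is small. -/

namespace Vale.Agent.P015.H586

open Finset Vale.Agent.P001 Vale.Agent.P006.CLS Vale.Agent.P015.H222
open scoped ComplexConjugate

/-- transform of a weight on the residue classes -/
noncomputable def tq (p : ℕ) (q : ZMod p → ℝ) (a : ℕ) : ℂ :=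
  ∑ t ∈ range p, (q (t : ZMod p) : ℂ) * ee (-(((t : ℤ) : ℝ) * ((a : ℝ) / p)))

theorem tq_zero (p : ℕ) (q : ZMod p → ℝ) :
    tq p q 0 = ((∑ t ∈ range p, q (t : ZMod p) : ℝ) : ℂ) := by
  simp [tq, ee_zero]

/-- orthogonality: the transforms of `q` and of `f` on `W` pair to the weighted sum -/
theorem tq_orth {p : ℕ} (hp : 0 < p) (q : ZMod p → ℝ) (r : ℕ → ℤ) (W : Finset (ℤ × ℤ))
    (f : ℤ × ℤ → ℂ) :
    ∑ a ∈ range p, tq p q a * hh r W f ⟨p, a⟩ =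
      (p : ℂ) * ∑ w ∈ W, f w * (q ((lf (r p) w : ℤ) : ZMod p) : ℂ) := by
  have : NeZero p := ⟨hp.ne'⟩
  have h1 : ∀ a : ℕ, tq p q a * hh r W f ⟨p, a⟩
      = ∑ t ∈ range p, ∑ w ∈ W, (q (t : ZMod p) : ℂ) * f w *
        ee (((lf (r p) w - (t : ℤ) : ℤ) : ℝ) * ((a : ℝ) / p)) := by
    intro a
    rw [hh_eq, tq, Finset.sum_mul_sum]
    refine Finset.sum_congr rfl (fun t _ => Finset.sum_congr rfl (fun w _ => ?_))
    have e : (((lf (r p) w - (t : ℤ) : ℤ) : ℝ) * ((a : ℝ) / p))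
        = -(((t : ℤ) : ℝ) * ((a : ℝ) / p)) + ((lf (r p) w : ℤ) : ℝ) * ((a : ℝ) / p) := by
      push_cast; ring
    rw [e, ee_add]
    ring
  simp_rw [h1]
  rw [Finset.sum_comm]
  have h2 : ∀ t ∈ range p, ∑ a ∈ range p, ∑ w ∈ W, (q (t : ZMod p) : ℂ) * f w *
        ee (((lf (r p) w - (t : ℤ) : ℤ) : ℝ) * ((a : ℝ) / p))
      = ∑ w ∈ W, (q (t : ZMod p) : ℂ) * f w *
        (if (p : ℤ) ∣ lf (r p) w - (t : ℤ) then (p : ℂ) else 0) := by
    intro t _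
    rw [Finset.sum_comm]
    refine Finset.sum_congr rfl (fun w _ => ?_)
    rw [← Finset.mul_sum, orth p hp]
  rw [Finset.sum_congr rfl h2, Finset.sum_comm, Finset.mul_sum]
  refine Finset.sum_congr rfl (fun w _ => ?_)
  rw [Finset.sum_eq_single (((lf (r p) w : ℤ) : ZMod p).val)]
  · have h3 : (((((lf (r p) w : ℤ) : ZMod p).val : ℕ)) : ZMod p) = ((lf (r p) w : ℤ) : ZMod p) :=
      ZMod.natCast_zmod_val _
    rw [h3, if_pos]
    · ring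
    · rw [← ZMod.intCast_zmod_eq_zero_iff_dvd]
      push_cast
      rw [h3]
      exact sub_self _
  · intro t ht hne
    rw [if_neg, mul_zero]
    intro hd
    apply hne
    have h4 := (ZMod.intCast_zmod_eq_zero_iff_dvd (lf (r p) w - (t : ℤ)) p).mpr hd
    push_cast at h4
    have h5 : ((lf (r p) w : ℤ) : ZMod p) = (t : ZMod p) := by
      rw [← sub_eq_zero]; exact h4
    rw [h5, ZMod.val_cast_of_lt (Finset.mem_range.mp ht)]
  · intro h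
    exact absurd (Finset.mem_range.mpr (ZMod.val_lt _)) h

theorem tq_parseval {p : ℕ} (hp : 0 < p) (q : ZMod p → ℝ) :
    ∑ a ∈ range p, ‖tq p q a‖ ^ 2 = p * ∑ t ∈ range p, q (t : ZMod p) ^ 2 := by
  have : NeZero p := ⟨hp.ne'⟩
  have h0 : ((∑ a ∈ range p, ‖tq p q a‖ ^ 2 : ℝ) : ℂ)
      = ((p * ∑ t ∈ range p, q (t : ZMod p) ^ 2 : ℝ) : ℂ) := by
    push_cast
    have h1 : ∀ a : ℕ, ((‖tq p q a‖ : ℂ)) ^ 2
        = ∑ t ∈ range p, ∑ t' ∈ range p, (q (t : ZMod p) : ℂ) * (q (t' : ZMod p) : ℂ) *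
          ee ((((t' : ℤ) - (t : ℤ) : ℤ) : ℝ) * ((a : ℝ) / p)) := by
      intro a
      have := normsq_eq (tq p q a)
      push_cast at this
      rw [this, tq, map_sum, Finset.sum_mul_sum]
      refine Finset.sum_congr rfl (fun t _ => Finset.sum_congr rfl (fun t' _ => ?_))
      rw [map_mul, Complex.conj_ofReal, ← ee_neg]
      have e : ((((t' : ℤ) - (t : ℤ) : ℤ) : ℝ) * ((a : ℝ) / p))
        = -(((t : ℤ) : ℝ) * ((a : ℝ) / p)) + - -(((t' : ℤ) : ℝ) * ((a : ℝ) / p)) := by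
        push_cast; ring
      rw [e, ee_add]
      ring
    simp_rw [h1]
    rw [Finset.sum_comm, Finset.mul_sum]
    refine Finset.sum_congr rfl (fun t ht => ?_)
    rw [Finset.sum_comm]
    have h2 : ∀ t' ∈ range p, ∑ a ∈ range p, (q (t : ZMod p) : ℂ) * (q (t' : ZMod p) : ℂ) *
          ee ((((t' : ℤ) - (t : ℤ) : ℤ) : ℝ) * ((a : ℝ) / p))
        = (q (t : ZMod p) : ℂ) * (q (t' : ZMod p) : ℂ) *
          (if (p : ℤ) ∣ (t' : ℤ) - (t : ℤ) then (p : ℂ) else 0) := by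
      intro t' _
      rw [← Finset.mul_sum, orth p hp]
    rw [Finset.sum_congr rfl h2, Finset.sum_eq_single t]
    · rw [sub_self, if_pos (dvd_zero _)]
      ring
    · intro t' ht' hne
      rw [if_neg, mul_zero]
      exact not_dvd_sub (Finset.mem_range.mp ht') (Finset.mem_range.mp ht) hne
    · intro h; exact absurd ht h
  exact_mod_cast h0

/-- one prime -/
theorem one_prime {p : ℕ} (hp : 0 < p) (q : ZMod p → ℝ) (r : ℕ → ℤ) {Λ : ℝ}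
    (hsum : ∑ t ∈ range p, q (t : ZMod p) = 1)
    (hsq : (p : ℝ) * ∑ t ∈ range p, q (t : ZMod p) ^ 2 ≤ Λ) (W : Finset (ℤ × ℤ))
    (hmass : 2 * ((p : ℝ) * ∑ w ∈ W, q ((lf (r p) w : ℤ) : ZMod p)) ≤ W.card) :
    (W.card : ℝ) ^ 2 ≤ 4 * Λ * ∑ a ∈ Icc 1 (p - 1), ‖hat r W ⟨p, a⟩‖ ^ 2 := by
  have h0 := tq_orth hp q r W (fun _ => 1)
  have hhat : ∀ a, hh r W (fun _ => 1) ⟨p, a⟩ = hat r W ⟨p, a⟩ := by
    intro a
    rw [hh, hf, hat]
    simp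
  have hrange : range p = insert 0 (Icc 1 (p - 1)) := by
    ext a
    simp only [Finset.mem_range, Finset.mem_insert, Finset.mem_Icc]
    omega
  have hhat0 : hat r W ⟨p, 0⟩ = (W.card : ℂ) := by
    rw [← hhat, hh_eq]
    simp [ee_zero]
  simp only [hhat, one_mul] at h0
  have h1 := h0
  rw [hrange, Finset.sum_insert (by simp), tq_zero, hsum, hhat0] at h1
  have h2 : ((W.card : ℝ) : ℂ) - (((p : ℝ) * ∑ w ∈ W, q ((lf (r p) w : ℤ) : ZMod p) : ℝ) : ℂ)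
      = - ∑ a ∈ Icc 1 (p - 1), tq p q a * hat r W ⟨p, a⟩ := by
    push_cast
    rw [← h1]
    push_cast
    ring
  have h3 : (W.card : ℝ) / 2 ≤ ‖∑ a ∈ Icc 1 (p - 1), tq p q a * hat r W ⟨p, a⟩‖ := by
    rw [← norm_neg, ← h2, ← Complex.ofReal_sub, Complex.norm_real, Real.norm_eq_abs]
    refine le_trans ?_ (le_abs_self _)
    linarith
  have h4 : ‖∑ a ∈ Icc 1 (p - 1), tq p q a * hat r W ⟨p, a⟩‖ ^ 2
      ≤ (∑ a ∈ Icc 1 (p - 1), ‖tq p q a‖ ^ 2) * ∑ a ∈ Icc 1 (p - 1), ‖hat r W ⟨p, a⟩‖ ^ 2 := by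
    have h5 : ‖∑ a ∈ Icc 1 (p - 1), tq p q a * hat r W ⟨p, a⟩‖
        ≤ ∑ a ∈ Icc 1 (p - 1), ‖tq p q a‖ * ‖hat r W ⟨p, a⟩‖ := by
      refine (norm_sum_le _ _).trans (le_of_eq ?_)
      exact Finset.sum_congr rfl (fun a _ => norm_mul _ _)
    calc ‖∑ a ∈ Icc 1 (p - 1), tq p q a * hat r W ⟨p, a⟩‖ ^ 2
        ≤ (∑ a ∈ Icc 1 (p - 1), ‖tq p q a‖ * ‖hat r W ⟨p, a⟩‖) ^ 2 :=
          pow_le_pow_left₀ (norm_nonneg _) h5 2
      _ ≤ _ := Finset.sum_mul_sq_le_sq_mul_sq _ _ _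
  have h6 : ∑ a ∈ Icc 1 (p - 1), ‖tq p q a‖ ^ 2 ≤ Λ := by
    refine le_trans ?_ hsq
    rw [← tq_parseval hp q]
    apply Finset.sum_le_sum_of_subset_of_nonneg
    · intro a ha
      rw [Finset.mem_Icc] at ha
      rw [Finset.mem_range]
      omega
    · intro _ _ _; positivity
  have h7 : ((W.card : ℝ) / 2) ^ 2 ≤ Λ * ∑ a ∈ Icc 1 (p - 1), ‖hat r W ⟨p, a⟩‖ ^ 2 := by
    refine (pow_le_pow_left₀ (by positivity) h3 2).trans (h4.trans ?_)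
    exact mul_le_mul_of_nonneg_right h6 (Finset.sum_nonneg fun _ _ => by positivity)
  nlinarith [h7]

/-- **Frostman bound at one level.** -/
theorem frost_level {r : ℕ → ℤ} {P : Finset ℕ} (hP : Rts r P) {Q : ℕ} (hQ : ∀ p ∈ P, p ≤ Q)
    (hQ1 : 1 ≤ Q) (q : ∀ p : ℕ, ZMod p → ℝ) {Λ : ℝ} (hΛ : 0 ≤ Λ)
    (hsum : ∀ p ∈ P, ∑ t ∈ range p, q p (t : ZMod p) = 1)
    (hsq : ∀ p ∈ P, (p : ℝ) * ∑ t ∈ range p, q p (t : ZMod p) ^ 2 ≤ Λ)
    {W : Finset (ℤ × ℤ)} {m : ℕ} {z : ℤ × ℤ} (hW : ∀ w ∈ W, w - z ∈ box m)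
    (hmass : ∀ p ∈ P, 2 * ((p : ℝ) * ∑ w ∈ W, q p ((lf (r p) w : ℤ) : ZMod p)) ≤ W.card) :
    (W.card : ℝ) * P.card ≤ 4 * C0 * ((m : ℝ) + 2 * Q) ^ 2 * Λ := by
  have hC0 := one_le_C0
  rcases W.eq_empty_or_nonempty with hWe | hWne
  · subst hWe
    rw [Finset.card_empty, Nat.cast_zero, zero_mul]
    positivity
  have h1 : (P.card : ℝ) * (W.card : ℝ) ^ 2 ≤ 4 * Λ * ∑ θ ∈ R1 P, ‖hg W (fx θ) (fy r θ)‖ ^ 2 := by
    rw [R1, Finset.sum_sigma, Finset.mul_sum]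
    calc (P.card : ℝ) * (W.card : ℝ) ^ 2 = ∑ p ∈ P, (W.card : ℝ) ^ 2 := by
          rw [Finset.sum_const, nsmul_eq_mul]
      _ ≤ _ := Finset.sum_le_sum (fun p hp =>
          one_prime (hP p hp).1.pos (q p) r (hsum p hp) (hsq p hp) W (hmass p hp))
  have h2 := ls_R1 hP hQ hQ1 m z W hW (fun _ => 1)
  simp only [one_mul, norm_one, one_pow, Finset.sum_const, nsmul_eq_mul, mul_one] at h2
  have h3 : ((W.card : ℝ) * P.card) * W.card ≤ (4 * C0 * ((m : ℝ) + 2 * Q) ^ 2 * Λ) * W.card := by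
    calc ((W.card : ℝ) * P.card) * W.card = (P.card : ℝ) * (W.card : ℝ) ^ 2 := by ring
      _ ≤ 4 * Λ * ∑ θ ∈ R1 P, ‖hg W (fx θ) (fy r θ)‖ ^ 2 := h1
      _ ≤ 4 * Λ * (C0 * ((m : ℝ) + 2 * Q) ^ 2 * W.card) :=
          mul_le_mul_of_nonneg_left h2 (by positivity)
      _ = _ := by ring
  have hc : (0 : ℝ) < W.card := by exact_mod_cast hWne.card_pos
  exact le_of_mul_le_mul_right h3 hc

end Vale.Agent.P015.H586
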