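import Vale.Agent.P015.H586.Frost
import Vale.Agent.P015.H586.Levsel

/-! Frostman bound for unions of good blocks: every box of side `m` meets few blocks. -/

namespace Vale.Agent.P015.H586

open Finset Vale.Agent.P001 Vale.Agent.P006.CLS Vale.Agent.P015.H222
open scoped ComplexConjugate

/-- relative mass of the set `T` of `l` points for the weight `q` modulo `p` -/
noncomputable def rel (r : ℕ → ℤ) (q : ∀ p : ℕ, ZMod p → ℝ) (l : ℕ) (T : Finset (ℤ × ℤ)) (p : ℕ) :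
    ℝ := (p : ℝ) / l * ∑ w ∈ T, q p ((lf (r p) w : ℤ) : ZMod p)

/-- Weighted average over the levels `k` and the primes `P k` of the level. -/
noncomputable def lav (S : Finset ℕ) (P : ℕ → Finset ℕ) (x : ℕ → ℝ) : ℝ :=
  ∑ k ∈ S, (1 : ℝ) / k * ((∑ p ∈ P k, x p) / (P k).card)

theorem lav_mono_set {S S' : Finset ℕ} (h : S ⊆ S') (P : ℕ → Finset ℕ) {x : ℕ → ℝ}
    (hx : ∀ k ∈ S', ∀ p ∈ P k, 0 ≤ x p) : lav S P x ≤ lav S' P x := by
  refine Finset.sum_le_sum_of_subset_of_nonneg h (fun k hk _ => ?_)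
  exact mul_nonneg (by positivity) (div_nonneg (Finset.sum_nonneg (hx k hk)) (Nat.cast_nonneg _))

theorem lav_sum {ι : Type*} (S : Finset ℕ) (P : ℕ → Finset ℕ) (B : Finset ι) (x : ι → ℕ → ℝ) :
    lav S P (fun p => ∑ b ∈ B, x b p) = ∑ b ∈ B, lav S P (x b) := by
  unfold lav
  rw [Finset.sum_comm]
  refine Finset.sum_congr rfl (fun k _ => ?_)
  rw [Finset.sum_comm, Finset.sum_div, Finset.mul_sum]

theorem lav_smul (S : Finset ℕ) (P : ℕ → Finset ℕ) (c : ℝ) (x : ℕ → ℝ) :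
    lav S P (fun p => c * x p) = c * lav S P x := by
  unfold lav
  rw [Finset.mul_sum]
  refine Finset.sum_congr rfl (fun k _ => ?_)
  rw [← Finset.mul_sum]
  ring

/-- **Selection of a level for a family of blocks.** All blocks `b ∈ B` have small average relative
mass over the levels `k ∈ S` (of total weight at least `θ`), and the defects `β` are small on
average.  Then at one level `k ∈ S`, for at least half of its primes, the relative mass averaged over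
`B` is at most `s`, and the defect is at most `c`. -/
theorem select {ι : Type*} {r : ℕ → ℤ} {q : ∀ p : ℕ, ZMod p → ℝ}
    {S : Finset ℕ} {P : ℕ → Finset ℕ} (hPne : ∀ k ∈ S, (P k).Nonempty)
    (hq0 : ∀ k ∈ S, ∀ p ∈ P k, ∀ c, 0 ≤ q p c) {β : ℕ → ℝ} (hβ0 : ∀ k ∈ S, ∀ p ∈ P k, 0 ≤ β p)
    {θ s c ε₁ ε₂ : ℝ} (hθ : 0 < θ) (hS : θ ≤ ∑ k ∈ S, (1 : ℝ) / k) (hs : 0 < s) (hc : 0 < c)
    {B : Finset ι} (hB : B.Nonempty) {pts : ι → Finset (ℤ × ℤ)} {l : ℕ}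
    (hrel : ∀ b ∈ B, lav S P (rel r q l (pts b)) ≤ ε₁) (hβ : lav S P β ≤ ε₂)
    (h1 : 4 * ε₁ ≤ θ * s) (h2 : 4 * ε₂ ≤ θ * c) :
    ∃ k ∈ S, ∃ P' ⊆ P k, (P k).card ≤ 2 * P'.card ∧ ∀ p ∈ P',
      ∑ b ∈ B, rel r q l (pts b) p ≤ s * B.card ∧ β p ≤ c := by
  have hBc : (0 : ℝ) < B.card := by exact_mod_cast hB.card_pos
  have hrel0 : ∀ k ∈ S, ∀ p ∈ P k, ∀ b, 0 ≤ rel r q l (pts b) p := by
    intro k hk p hp b
    exact mul_nonneg (by positivity) (Finset.sum_nonneg (fun w _ => hq0 k hk p hp _))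
  have e : lav S P (fun p => (∑ b ∈ B, rel r q l (pts b) p) / B.card)
      = (∑ b ∈ B, lav S P (rel r q l (pts b))) / B.card := by
    rw [← lav_sum]
    have := lav_smul S P ((B.card : ℝ)⁻¹) (fun p => ∑ b ∈ B, rel r q l (pts b) p)
    simp only [div_eq_inv_mul]
    exact this
  have h3 : (∑ b ∈ B, lav S P (rel r q l (pts b))) / B.card ≤ ε₁ := by
    rw [div_le_iff₀ hBc]
    calc ∑ b ∈ B, lav S P (rel r q l (pts b)) ≤ ∑ b ∈ B, ε₁ := Finset.sum_le_sum hrel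
      _ = ε₁ * B.card := by rw [Finset.sum_const, nsmul_eq_mul]; ring
  have h4 : 4 * lav S P (fun p => (∑ b ∈ B, rel r q l (pts b) p) / B.card) ≤ θ * s := by
    rw [e]; linarith
  have h5 : 4 * lav S P β ≤ θ * c := by linarith
  obtain ⟨k, hk, P', hP', hc', h⟩ := levsel S (fun k => (1 : ℝ) / k) (fun k _ => by positivity)
    hθ hS P hPne (fun _ p => (∑ b ∈ B, rel r q l (pts b) p) / B.card) (fun _ p => β p)
    (fun k hk p hp => div_nonneg (Finset.sum_nonneg (fun b _ => hrel0 k hk p hp b)) hBc.le)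
    hβ0 hs hc h4 h5
  refine ⟨k, hk, P', hP', hc', fun p hp => ⟨?_, (h p hp).2⟩⟩
  have := (h p hp).1
  rwa [div_le_iff₀ hBc] at this

/-- mass on a union of disjoint blocks of `l` points -/
theorem mass_union {ι : Type*} [DecidableEq ι] {r : ℕ → ℤ} {q : ∀ p : ℕ, ZMod p → ℝ} {B : Finset ι}
    {pts : ι → Finset (ℤ × ℤ)} {l : ℕ} (hl : 0 < l)
    (hdisj : ∀ b ∈ B, ∀ b' ∈ B, b ≠ b' → Disjoint (pts b) (pts b')) {p : ℕ} :
    (p : ℝ) * ∑ w ∈ B.biUnion pts, q p ((lf (r p) w : ℤ) : ZMod p)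
      = l * ∑ b ∈ B, rel r q l (pts b) p := by
  have hl0 : (l : ℝ) ≠ 0 := by positivity
  rw [Finset.sum_biUnion (fun b hb b' hb' h => hdisj b hb b' hb' h), Finset.mul_sum, Finset.mul_sum]
  refine Finset.sum_congr rfl (fun b _ => ?_)
  rw [rel]
  field_simp

theorem card_union {ι : Type*} [DecidableEq ι] {B : Finset ι}
    {pts : ι → Finset (ℤ × ℤ)} {l : ℕ} (hcard : ∀ b ∈ B, (pts b).card = l)
    (hdisj : ∀ b ∈ B, ∀ b' ∈ B, b ≠ b' → Disjoint (pts b) (pts b')) :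
    (B.biUnion pts).card = l * B.card := by
  rw [Finset.card_biUnion (fun b hb b' hb' h => hdisj b hb b' hb' h), Finset.sum_congr rfl hcard,
    Finset.sum_const, smul_eq_mul, mul_comm]

/-- Bound for a family of good blocks inside a box of side `m`. -/
theorem box_bound {ι : Type*} [DecidableEq ι] {r : ℕ → ℤ} {q : ∀ p : ℕ, ZMod p → ℝ}
    {S : Finset ℕ} {P : ℕ → Finset ℕ} {Qk : ℕ → ℕ} (hP : ∀ k ∈ S, Rts r (P k))
    (hPQ : ∀ k ∈ S, ∀ p ∈ P k, p ≤ Qk k) (hPne : ∀ k ∈ S, (P k).Nonempty)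
    (hq0 : ∀ k ∈ S, ∀ p ∈ P k, ∀ c, 0 ≤ q p c)
    (hq1 : ∀ k ∈ S, ∀ p ∈ P k, ∑ t ∈ range p, q p (t : ZMod p) = 1)
    {β : ℕ → ℝ} (hβ0 : ∀ k ∈ S, ∀ p ∈ P k, 0 ≤ β p)
    (hqβ : ∀ k ∈ S, ∀ p ∈ P k, ∀ c, (p : ℝ) * q p c ≤ (p : ℝ) ^ β p)
    {θ c ε₁ ε₂ : ℝ} (hθ : 0 < θ) (hS : θ ≤ ∑ k ∈ S, (1 : ℝ) / k) (hc : 0 < c)
    {B : Finset ι} {pts : ι → Finset (ℤ × ℤ)} {l : ℕ} (hl : 0 < l)
    (hcard : ∀ b ∈ B, (pts b).card = l)
    (hdisj : ∀ b ∈ B, ∀ b' ∈ B, b ≠ b' → Disjoint (pts b) (pts b'))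
    (hrel : ∀ b ∈ B, lav S P (rel r q l (pts b)) ≤ ε₁) (hβ : lav S P β ≤ ε₂)
    (h1 : 8 * ε₁ ≤ θ) (h2 : 4 * ε₂ ≤ θ * c)
    {m : ℕ} (hm : 1 ≤ m) {z : ℤ × ℤ} (hW : ∀ w ∈ B.biUnion pts, w - z ∈ box m)
    (hQm : ∀ k ∈ S, Qk k ≤ m) {N : ℝ} (hPN : ∀ k ∈ S, N ≤ (P k).card) :
    ((B.biUnion pts).card : ℝ) * N ≤ 72 * C0 * (m : ℝ) ^ (2 + c) := by
  have hC0 := one_le_C0
  have hm0 : (1 : ℝ) ≤ m := by exact_mod_cast hm
  rcases B.eq_empty_or_nonempty with hBe | hB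
  · subst hBe
    rw [Finset.biUnion_empty, Finset.card_empty, Nat.cast_zero, zero_mul]
    positivity
  obtain ⟨k, hk, P', hP', hc', h⟩ := select (r := r) hPne hq0 hβ0 hθ hS
    (show (0 : ℝ) < 1 / 2 by norm_num) hc hB hrel hβ (by linarith) h2
  have hrts : Rts r P' := (hP k hk).mono hP'
  have hP'ne : P'.Nonempty := by
    rw [← Finset.card_pos]
    have := (hPne k hk).card_pos
    omega
  have hQ1 : 1 ≤ Qk k := by
    obtain ⟨p, hp⟩ := hP'ne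
    exact ((hrts p hp).1.pos).trans_le (hPQ k hk p (hP' hp))
  have hQm' : (Qk k : ℝ) ≤ m := by exact_mod_cast hQm k hk
  have key := frost_level hrts (Q := Qk k) (fun p hp => hPQ k hk p (hP' hp)) hQ1 q
    (Λ := (m : ℝ) ^ c) (by positivity) (fun p hp => hq1 k hk p (hP' hp)) (fun p hp => ?_)
    (W := B.biUnion pts) (m := m) (z := z) hW (fun p hp => ?_)
  · have hPP : N ≤ 2 * P'.card := by
      refine (hPN k hk).trans ?_
      exact_mod_cast hc'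
    have h3 : ((m : ℝ) + 2 * Qk k) ^ 2 ≤ 9 * (m : ℝ) ^ 2 := by
      have : (m : ℝ) + 2 * Qk k ≤ 3 * m := by linarith
      calc ((m : ℝ) + 2 * Qk k) ^ 2 ≤ (3 * (m : ℝ)) ^ 2 := pow_le_pow_left₀ (by positivity) this 2
        _ = _ := by ring
    have h4 : (m : ℝ) ^ (2 + c) = (m : ℝ) ^ 2 * (m : ℝ) ^ c := by
      rw [Real.rpow_add (by linarith), Real.rpow_two]
    have hWc : (0 : ℝ) ≤ ((B.biUnion pts).card : ℝ) := Nat.cast_nonneg _
    have hmc : (0 : ℝ) ≤ (m : ℝ) ^ c := by positivity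
    calc ((B.biUnion pts).card : ℝ) * N ≤ ((B.biUnion pts).card : ℝ) * (2 * P'.card) :=
          mul_le_mul_of_nonneg_left hPP hWc
      _ = 2 * (((B.biUnion pts).card : ℝ) * P'.card) := by ring
      _ ≤ 2 * (4 * C0 * ((m : ℝ) + 2 * Qk k) ^ 2 * (m : ℝ) ^ c) := by linarith
      _ ≤ 2 * (4 * C0 * (9 * (m : ℝ) ^ 2) * (m : ℝ) ^ c) := by gcongr
      _ = _ := by rw [h4]; ring
  · -- `p ∑ q² ≤ m ^ c`
    have hpk := hP' hp
    have hp0 : (1 : ℝ) ≤ p := by exact_mod_cast (hrts p hp).1.pos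
    have hβp := (h p hp).2
    have hpm : (p : ℝ) ≤ m := by
      refine le_trans ?_ hQm'
      exact_mod_cast hPQ k hk p hpk
    have h5 : (p : ℝ) ^ β p ≤ (m : ℝ) ^ c := by
      calc (p : ℝ) ^ β p ≤ (p : ℝ) ^ c := Real.rpow_le_rpow_of_exponent_le hp0 hβp
        _ ≤ _ := Real.rpow_le_rpow (by linarith) hpm hc.le
    rw [Finset.mul_sum]
    calc ∑ t ∈ range p, (p : ℝ) * q p (t : ZMod p) ^ 2
        ≤ ∑ t ∈ range p, (m : ℝ) ^ c * q p (t : ZMod p) := by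
          refine Finset.sum_le_sum (fun t _ => ?_)
          calc (p : ℝ) * q p (t : ZMod p) ^ 2 = ((p : ℝ) * q p (t : ZMod p)) * q p (t : ZMod p) := by
                ring
            _ ≤ _ := mul_le_mul_of_nonneg_right ((hqβ k hk p hpk _).trans h5) (hq0 k hk p hpk _)
      _ = _ := by rw [← Finset.mul_sum, hq1 k hk p hpk, mul_one]
  · rw [mass_union hl hdisj, card_union hcard hdisj]
    have h6 := (h p hp).1
    push_cast
    have hl0 : (0 : ℝ) < l := by exact_mod_cast hl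
    have h7 := mul_le_mul_of_nonneg_left h6 hl0.le
    linarith

end Vale.Agent.P015.H586
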