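import Vale.Agent.P015.H586.Up
import Vale.Agent.P015.H416.SoftWin

/-! The Frostman bound and the level selection for unions of good blocks of a soft window. -/

namespace Vale.Agent.P015.H586

open Finset Vale.Agent.P001 Vale.Agent.P006.CLS Vale.Agent.P015.H222
open Vale.Agent.P015.H416 (IPath SoftWin qa av)

/-- the points of the `j`-th block of length `l` -/
def pts (g : ℕ → ℤ × ℤ) (l j : ℕ) : Finset (ℤ × ℤ) := (range l).image (fun i => g (j * l + i))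

theorem mem_pts {g : ℕ → ℤ × ℤ} {l j : ℕ} {w : ℤ × ℤ} :
    w ∈ pts g l j ↔ ∃ i < l, g (j * l + i) = w := by
  simp [pts]

theorem sum_pts {g : ℕ → ℤ × ℤ} (hg : Function.Injective g) (l j : ℕ) (f : ℤ × ℤ → ℝ) :
    ∑ w ∈ pts g l j, f w = ∑ i ∈ range l, f (g (j * l + i)) := by
  rw [pts, Finset.sum_image]
  intro a _ b _ h
  have := hg h
  omega

theorem card_pts {g : ℕ → ℤ × ℤ} (hg : Function.Injective g) (l j : ℕ) : (pts g l j).card = l := by
  rw [pts, Finset.card_image_of_injective, Finset.card_range]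
  intro a b h
  have := hg h
  omega

theorem disj_pts {g : ℕ → ℤ × ℤ} (hg : Function.Injective g) {l j j' : ℕ} (h : j ≠ j') :
    Disjoint (pts g l j) (pts g l j') := by
  rw [Finset.disjoint_left]
  intro w hw hw'
  obtain ⟨i, hi, rfl⟩ := mem_pts.mp hw
  obtain ⟨i', hi', h2⟩ := mem_pts.mp hw'
  have h3 := hg h2
  rcases lt_or_gt_of_ne h with h4 | h4
  · have : (j + 1) * l ≤ j' * l := Nat.mul_le_mul_right l h4
    rw [add_mul] at this
    omega
  · have : (j' + 1) * l ≤ j * l := Nat.mul_le_mul_right l h4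
    rw [add_mul] at this
    omega

theorem rel_eq {g : ℕ → ℤ × ℤ} (hg : Function.Injective g) (r : ℕ → ℤ) (q : ∀ p : ℕ, ZMod p → ℝ)
    (l j p : ℕ) : rel r q l (pts g l j) p = H416.rel r q g l p j := by
  rw [rel, H416.rel, sum_pts hg]
  rfl

theorem lav_eq (S : Finset ℕ) (P : ℕ → Finset ℕ) (x : ℕ → ℝ) :
    lav S P x = ∑ k ∈ S, 1 / (k : ℝ) * av (P k) x := rfl

/-- steps of an `IPath` -/
theorem path_diff {D : ℕ} {g : ℕ → ℤ × ℤ} (hg : IPath D g) (a n : ℕ) :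
    g (a + n) - g a ∈ box (D * n) := by
  rw [mem_box]
  induction n with
  | zero => simp
  | succ n ih =>
    have h := hg.step (a + n)
    simp only [abs_le] at h
    simp only [Prod.fst_sub, Prod.snd_sub] at ih ⊢
    rw [← add_assoc]
    have e : ((D * (n + 1) : ℕ) : ℤ) = ((D * n : ℕ) : ℤ) + D := by push_cast; ring
    rw [e]
    omega

theorem pts_diff {D : ℕ} {g : ℕ → ℤ × ℤ} (hg : IPath D g) {l j : ℕ} {u w : ℤ × ℤ}
    (hu : u ∈ pts g l j) (hw : w ∈ pts g l j) : u - w ∈ box (D * l) := by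
  obtain ⟨i, hi, rfl⟩ := mem_pts.mp hu
  obtain ⟨i', hi', rfl⟩ := mem_pts.mp hw
  rcases le_total i i' with h | h
  · have h1 := path_diff hg (j * l + i) (i' - i)
    rw [show j * l + i + (i' - i) = j * l + i' by omega] at h1
    have h2 : D * (i' - i) ≤ D * l := Nat.mul_le_mul_left D (by omega)
    have h3 : ((D * (i' - i) : ℕ) : ℤ) ≤ ((D * l : ℕ) : ℤ) := by exact_mod_cast h2
    rw [mem_box] at h1 ⊢
    simp only [Prod.fst_sub, Prod.snd_sub] at h1 ⊢
    omega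
  · have h1 := path_diff hg (j * l + i') (i - i')
    rw [show j * l + i' + (i - i') = j * l + i by omega] at h1
    have h2 : D * (i - i') ≤ D * l := Nat.mul_le_mul_left D (by omega)
    have h3 : ((D * (i - i') : ℕ) : ℤ) ≤ ((D * l : ℕ) : ℤ) := by exact_mod_cast h2
    rw [mem_box] at h1 ⊢
    simp only [Prod.fst_sub, Prod.snd_sub] at h1 ⊢
    omega

theorem box_card (m : ℕ) : ((box m).card : ℝ) = (2 * m + 1) ^ 2 := by
  have h0 : box m = Finset.Icc (-(m : ℤ)) m ×ˢ Finset.Icc (-(m : ℤ)) m := rfl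
  rw [h0, Finset.card_product, Int.card_Icc]
  have h : ((m : ℤ) + 1 - -(m : ℤ)).toNat = 2 * m + 1 := by omega
  rw [h]
  push_cast
  ring

theorem card_filter_box {W : Finset (ℤ × ℤ)} {z : ℤ × ℤ} {m : ℕ} (hm : 1 ≤ m) :
    ((W.filter (fun w => w - z ∈ box m)).card : ℝ) ≤ 9 * m ^ 2 := by
  have h1 : (W.filter (fun w => w - z ∈ box m)).card ≤ (box m).card := by
    refine Finset.card_le_card_of_injOn (fun w => w - z)
      (fun w hw => (Finset.mem_filter.mp hw).2) ?_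
    intro a _ b _ h
    exact sub_left_injective h
  have h2 : ((W.filter (fun w => w - z ∈ box m)).card : ℝ) ≤ ((box m).card : ℝ) := by
    exact_mod_cast h1
  refine h2.trans ?_
  rw [box_card]
  have hm0 : (1 : ℝ) ≤ m := by exact_mod_cast hm
  nlinarith

variable {A B : ℕ} {ρ ε : ℝ} {r : ℕ → ℤ} {k0 l Nb : ℕ} {g : ℕ → ℤ × ℤ} {P : ℕ → Finset ℕ}
  {q : ∀ p : ℕ, ZMod p → ℝ} {β : ℕ → ℝ}

theorem SoftWin.ne (h : SoftWin A B ρ ε r k0 l Nb g P q β) (hA : 0 < A) (hρ : 0 < ρ) {k : ℕ}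
    (hk : k ∈ Ico k0 (B * k0)) : (P k).Nonempty := by
  rw [← Finset.card_pos]
  by_contra h0
  have h1 := h.many k hk
  have h2 : (P k).card = 0 := by omega
  rw [h2, Nat.cast_zero, mul_zero] at h1
  have : 0 < ρ * (A : ℝ) ^ k := by positivity
  linarith

/-- one box, abstract form: the levels `Ico a κ` are used -/
theorem one_box {D : ℕ} (hg : IPath D g) (h : SoftWin A B ρ ε r k0 l Nb g P q β) (hA : 2 ≤ A)
    (hρ : 0 < ρ) {G : Finset ℕ} {ε₁ θ c : ℝ}
    (hG : ∀ j ∈ G, ∑ k ∈ Ico k0 (B * k0), 1 / (k : ℝ) *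
      av (P k) (fun p => H416.rel r q g l p j) ≤ ε₁)
    {a κ m : ℕ} (ha1 : 1 ≤ a) (ha : k0 ≤ a) (haκ : a ≤ κ) (hκ : κ ≤ B * k0) (hm : A ^ κ ≤ m)
    (hDl : D * l ≤ m) (hθ : 0 < θ) (hθ2 : θ * κ ≤ κ - a) (hc : 0 < c)
    (h1 : 8 * ε₁ ≤ θ) (h2 : 4 * ε ≤ θ * c) (z : ℤ × ℤ) :
    (((G.biUnion (pts g l)).filter (fun w => w - z ∈ box m)).card : ℝ) * (ρ * (A : ℝ) ^ a)
      ≤ κ * (72 * C0 * (2 * m : ℝ) ^ (2 + c)) := by
  classical
  have hm1 : 1 ≤ m := (Nat.one_le_pow _ _ (by omega)).trans hm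
  have hκ0 : (0 : ℝ) < κ := by
    have : 0 < κ := by omega
    exact_mod_cast this
  have hsub : Ico a κ ⊆ Ico k0 (B * k0) := by
    intro k hk
    rw [Finset.mem_Ico] at hk ⊢
    omega
  set G' := G.filter (fun j => ∃ w ∈ pts g l j, w - z ∈ box m) with hG'
  have hcov : (G.biUnion (pts g l)).filter (fun w => w - z ∈ box m) ⊆ G'.biUnion (pts g l) := by
    intro w hw
    rw [Finset.mem_filter, Finset.mem_biUnion] at hw
    obtain ⟨⟨j, hj, hwj⟩, hwz⟩ := hw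
    rw [Finset.mem_biUnion]
    exact ⟨j, by rw [hG', Finset.mem_filter]; exact ⟨hj, w, hwj, hwz⟩, hwj⟩
  have hl := h.l_pos
  have hκa : θ ≤ ∑ k ∈ Ico a κ, (1 : ℝ) / k := by
    refine le_trans ?_ (sum_inv_ge ha1 haκ)
    rw [le_div_iff₀ hκ0]
    linarith
  have hA0 : (0 : ℝ) < A := by
    have : 0 < A := by omega
    exact_mod_cast this
  have hA1 : (1 : ℝ) ≤ A := by
    have : 1 ≤ A := by omega
    exact_mod_cast this
  have key := box_bound (r := r) (q := q) (S := Ico a κ) (P := P) (Qk := fun k => A ^ (k + 1))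
    (fun k hk => h.rts k (hsub hk)) (fun k hk p hp => (h.rng k (hsub hk) p hp).2)
    (fun k hk => SoftWin.ne h (by omega) hρ (hsub hk))
    (fun k hk p hp c => h.nonneg k (hsub hk) p hp c) (fun k hk p hp => h.one k (hsub hk) p hp)
    (β := β) (fun k hk p hp => (h.beta k (hsub hk) p hp).1)
    (fun k hk p hp c => h.sup k (hsub hk) p hp c)
    (θ := θ) (c := c) (ε₁ := ε₁) (ε₂ := ε) hθ hκa hc (B := G') (pts := pts g l) (l := l)
    (by omega) (fun j _ => card_pts hg.inj l j) (fun j _ j' _ hne => disj_pts hg.inj hne)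
    (fun j hj => ?_) ?_ h1 h2 (m := 2 * m) (by omega) (z := z) (fun w hw => ?_)
    (fun k hk => ?_) (N := ρ * (A : ℝ) ^ a / κ) (fun k hk => ?_)
  · have h3 : (((G.biUnion (pts g l)).filter (fun w => w - z ∈ box m)).card : ℝ)
        ≤ ((G'.biUnion (pts g l)).card : ℝ) := by exact_mod_cast Finset.card_le_card hcov
    push_cast at key
    calc (((G.biUnion (pts g l)).filter (fun w => w - z ∈ box m)).card : ℝ) * (ρ * (A : ℝ) ^ a)
        ≤ ((G'.biUnion (pts g l)).card : ℝ) * (ρ * (A : ℝ) ^ a) :=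
          mul_le_mul_of_nonneg_right h3 (by positivity)
      _ = κ * (((G'.biUnion (pts g l)).card : ℝ) * (ρ * (A : ℝ) ^ a / κ)) := by field_simp
      _ ≤ _ := mul_le_mul_of_nonneg_left key hκ0.le
  · -- good blocks
    have h3 := hG j (Finset.mem_filter.mp hj).1
    have h4 : lav (Ico k0 (B * k0)) P (rel r q l (pts g l j)) ≤ ε₁ := by
      rw [lav_eq]
      refine le_trans (le_of_eq ?_) h3
      refine Finset.sum_congr rfl (fun k _ => ?_)
      congr 2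
      funext p
      exact rel_eq hg.inj r q l j p
    refine (lav_mono_set hsub P ?_).trans h4
    intro k hk p hp
    exact mul_nonneg (by positivity) (Finset.sum_nonneg (fun w _ => h.nonneg k hk p hp _))
  · refine (lav_mono_set hsub P (fun k hk p hp => (h.beta k hk p hp).1)).trans ?_
    rw [lav_eq]
    exact h.avbeta
  · -- blocks lie in the larger box
    rw [Finset.mem_biUnion] at hw
    obtain ⟨j, hj, hwj⟩ := hw
    obtain ⟨u, hu, huz⟩ := (Finset.mem_filter.mp hj).2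
    have h3 := pts_diff hg hwj hu
    rw [mem_box] at h3 huz ⊢
    simp only [Prod.fst_sub, Prod.snd_sub] at h3 huz ⊢
    have h4 : ((D * l : ℕ) : ℤ) ≤ (m : ℤ) := by exact_mod_cast hDl
    push_cast
    push_cast at h3 h4
    omega
  · rw [Finset.mem_Ico] at hk
    calc A ^ (k + 1) ≤ A ^ κ := Nat.pow_le_pow_right (by omega) (by omega)
      _ ≤ m := hm
      _ ≤ 2 * m := by omega
  · have hk' := Finset.mem_Ico.mp hk
    have h3 := h.many k (hsub hk)
    rw [div_le_iff₀ hκ0]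
    have h4 : (A : ℝ) ^ a ≤ (A : ℝ) ^ k := pow_le_pow_right₀ hA1 hk'.1
    have h5 : (k : ℝ) ≤ κ := by exact_mod_cast hk'.2.le
    calc ρ * (A : ℝ) ^ a ≤ ρ * (A : ℝ) ^ k := mul_le_mul_of_nonneg_left h4 hρ.le
      _ ≤ k * (P k).card := h3
      _ ≤ κ * (P k).card := mul_le_mul_of_nonneg_right h5 (Nat.cast_nonneg _)
      _ = _ := mul_comm _ _

/-- powers are eventually below an exponential -/
theorem eventually_pow_le (T : ℝ) (j : ℕ) : ∃ K0 : ℕ, ∀ k ≥ K0, T * (k : ℝ) ^ j ≤ 2 ^ k := by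
  have h1 := tendsto_pow_const_div_const_pow_of_one_lt j (show (1 : ℝ) < 2 by norm_num)
  have hT : (0 : ℝ) < 1 / (|T| + 1) := by positivity
  have h2 := h1.eventually (gt_mem_nhds hT)
  rw [Filter.eventually_atTop] at h2
  obtain ⟨K0, hK0⟩ := h2
  refine ⟨K0, fun k hk => ?_⟩
  have h3 := hK0 k hk
  rw [div_lt_div_iff₀ (by positivity) (by positivity), one_mul] at h3
  have h4 : T ≤ |T| + 1 := (le_abs_self T).trans (by linarith)
  calc T * (k : ℝ) ^ j ≤ (|T| + 1) * (k : ℝ) ^ j := mul_le_mul_of_nonneg_right h4 (by positivity)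
    _ = (k : ℝ) ^ j * (|T| + 1) := mul_comm _ _
    _ ≤ 2 ^ k := h3.le

/-- the numerical end of the Frostman bound -/
theorem up_num {A B κ a m k0 : ℕ} {ρ F T u : ℝ} (hA : 2 ≤ A) (hB : 1 ≤ B)
    (hρ : 0 < ρ) (hm1 : 1 ≤ m) (hu0 : 0 < u) (hu : u ^ (4 * B) = m) (hmB : m ≤ A ^ (B * k0))
    (hκ : A ^ κ ≤ m) (hκ' : m < A ^ (κ + 1)) (ha : a = κ - κ / (4 * B)) (hκB : κ ≤ B * k0)
    (hT : T = 576 * C0 * A * B / ρ) (hTk : (T * k0) ^ 2 ≤ 2 ^ k0)
    (hF : F * (ρ * (A : ℝ) ^ a) ≤ κ * (72 * C0 * ((2 * m : ℝ) ^ 2 * (2 * u)))) (hF0 : 0 ≤ F) :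
    F ≤ (A : ℝ) ^ k0 * m := by
  have hC0 := one_le_C0
  have hA0 : (0 : ℝ) < A := by
    have : 0 < A := by omega
    exact_mod_cast this
  have hA2 : (2 : ℝ) ≤ A := by exact_mod_cast hA
  have hm0 : (0 : ℝ) < m := by exact_mod_cast hm1
  -- `A ^ (κ / 4B) ≤ u`
  have h1 : (A : ℝ) ^ (κ / (4 * B)) ≤ u := by
    have h2 : ((A : ℝ) ^ (κ / (4 * B))) ^ (4 * B) ≤ u ^ (4 * B) := by
      rw [← pow_mul, hu]
      calc (A : ℝ) ^ (κ / (4 * B) * (4 * B)) ≤ (A : ℝ) ^ κ :=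
            pow_le_pow_right₀ (by linarith) (Nat.div_mul_le_self κ (4 * B))
        _ ≤ m := by exact_mod_cast hκ
    exact le_of_pow_le_pow_left₀ (by omega) hu0.le h2
  -- `u ^ 4 ≤ A ^ k0`
  have h2 : u ^ 4 ≤ (A : ℝ) ^ k0 := by
    have h3 : (u ^ 4) ^ B ≤ ((A : ℝ) ^ k0) ^ B := by
      rw [← pow_mul, hu, ← pow_mul, mul_comm k0 B]
      exact_mod_cast hmB
    exact le_of_pow_le_pow_left₀ (by omega) (by positivity) h3
  -- `m ≤ A * A ^ a * u`
  have h3 : (m : ℝ) ≤ A * (A : ℝ) ^ a * u := by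
    have h4 : (m : ℝ) ≤ (A : ℝ) ^ (κ + 1) := by exact_mod_cast hκ'.le
    have h5 : κ + 1 = 1 + a + κ / (4 * B) := by
      have := Nat.div_le_self κ (4 * B)
      omega
    rw [h5, pow_add, pow_add, pow_one] at h4
    exact h4.trans (mul_le_mul_of_nonneg_left h1 (by positivity))
  have h4 : F * (ρ * m) ≤ A * u * (κ * (72 * C0 * ((2 * m : ℝ) ^ 2 * (2 * u)))) := by
    calc F * (ρ * m) ≤ F * (ρ * (A * (A : ℝ) ^ a * u)) := by gcongr
      _ = A * u * (F * (ρ * (A : ℝ) ^ a)) := by ring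
      _ ≤ _ := mul_le_mul_of_nonneg_left hF (by positivity)
  have h5 : F ≤ T * k0 * u ^ 2 * m := by
    have h6 : F * (ρ * m) ≤ (T * k0 * u ^ 2 * m) * (ρ * m) := by
      refine h4.trans ?_
      have h7 : (κ : ℝ) ≤ B * k0 := by exact_mod_cast hκB
      have h8 : (T * k0 * u ^ 2 * m) * (ρ * m)
          = (B * k0) * (A * u * (72 * C0 * ((2 * m : ℝ) ^ 2 * (2 * u)))) := by
        rw [hT]; field_simp; ring
      rw [h8]
      have h9 : 0 ≤ A * u * (72 * C0 * ((2 * m : ℝ) ^ 2 * (2 * u))) := by positivity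
      calc A * u * (κ * (72 * C0 * ((2 * m : ℝ) ^ 2 * (2 * u))))
          = κ * (A * u * (72 * C0 * ((2 * m : ℝ) ^ 2 * (2 * u)))) := by ring
        _ ≤ _ := mul_le_mul_of_nonneg_right h7 h9
    exact le_of_mul_le_mul_right h6 (by positivity)
  refine h5.trans (mul_le_mul_of_nonneg_right ?_ hm0.le)
  have hT0 : 0 ≤ T := by rw [hT]; positivity
  have h6 : (T * k0 * u ^ 2) ^ 2 ≤ ((A : ℝ) ^ k0) ^ 2 := by
    calc (T * k0 * u ^ 2) ^ 2 = (T * k0) ^ 2 * u ^ 4 := by ring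
      _ ≤ (2 : ℝ) ^ k0 * (A : ℝ) ^ k0 := mul_le_mul hTk h2 (by positivity) (by positivity)
      _ ≤ (A : ℝ) ^ k0 * (A : ℝ) ^ k0 := by
          refine mul_le_mul_of_nonneg_right ?_ (by positivity)
          exact pow_le_pow_left₀ (by norm_num) hA2 k0
      _ = _ := by ring
  exact le_of_pow_le_pow_left₀ (by norm_num) (by positivity) h6

/-- **Frostman bound for unions of good blocks of a soft window.** -/
theorem up_win (B : ℕ) (hB : 1 ≤ B) (D A : ℕ) (ρ : ℝ) (hA : 2 ≤ A) (hρ : 0 < ρ) :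
    ∃ K0 : ℕ, ∀ k0 ≥ K0, ∀ (ε ε₁ : ℝ), 128 * (B : ℝ) ^ 2 * ε ≤ 1 → 64 * (B : ℝ) * ε₁ ≤ 1 →
      ∀ (r : ℕ → ℤ) (l Nb : ℕ) (g : ℕ → ℤ × ℤ) (P : ℕ → Finset ℕ)
        (q : ∀ p : ℕ, ZMod p → ℝ) (β : ℕ → ℝ), IPath D g → SoftWin A B ρ ε r k0 l Nb g P q β →
      ∀ G : Finset ℕ, (∀ j ∈ G, ∑ k ∈ Ico k0 (B * k0), 1 / (k : ℝ) *
        av (P k) (fun p => H416.rel r q g l p j) ≤ ε₁) →
      ∀ (z : ℤ × ℤ) (m : ℕ), A ^ (2 * k0) ≤ m → m ≤ A ^ (B * k0) →
        (((G.biUnion (pts g l)).filter (fun w => w - z ∈ box m)).card : ℝ)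
          ≤ (A : ℝ) ^ k0 * m := by
  obtain ⟨T, hT⟩ : ∃ T : ℝ, T = 576 * C0 * A * B / ρ := ⟨_, rfl⟩
  obtain ⟨K1, hK1⟩ := eventually_pow_le (T ^ 2) 2
  obtain ⟨K2, hK2⟩ := eventually_pow_le D 4
  refine ⟨max (max K1 K2) (4 * B + 1), fun k0 hk0 ε ε₁ hε hε₁ r l Nb g P q β hg h G hG z m hm1 hm2 => ?_⟩
  have hk1 : K1 ≤ k0 := le_trans (le_max_left _ _) (le_trans (le_max_left _ _) hk0)
  have hk2 : K2 ≤ k0 := le_trans (le_max_right _ _) (le_trans (le_max_left _ _) hk0)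
  have hk3 : 4 * B + 1 ≤ k0 := le_trans (le_max_right _ _) hk0
  have hm0 : 1 ≤ m := (Nat.one_le_pow _ _ (by omega)).trans hm1
  have hB0 : (0 : ℝ) < B := by exact_mod_cast hB
  have hmR : (0 : ℝ) < m := by exact_mod_cast hm0
  set κ := Nat.log A m with hκ
  have hκ1 : A ^ κ ≤ m := Nat.pow_log_le_self A (by omega)
  have hκ2 : m < A ^ (κ + 1) := Nat.lt_pow_succ_log_self (by omega) m
  have hκ3 : 2 * k0 ≤ κ := by
    have h1 : A ^ (2 * k0) < A ^ (κ + 1) := lt_of_le_of_lt hm1 hκ2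
    have h2 := (Nat.pow_lt_pow_iff_right (by omega : 1 < A)).mp h1
    omega
  have hκ4 : κ ≤ B * k0 := by
    have h1 : A ^ κ ≤ A ^ (B * k0) := hκ1.trans hm2
    exact (Nat.pow_le_pow_iff_right (by omega : 1 < A)).mp h1
  set a := κ - κ / (4 * B) with ha
  obtain ⟨n, hn⟩ : ∃ n, n = κ / (4 * B) := ⟨_, rfl⟩
  have hdiv : n * (4 * B) ≤ κ := by rw [hn]; exact Nat.div_mul_le_self _ _
  have hdiv2 : κ < (n + 1) * (4 * B) := by
    have h1 := Nat.div_add_mod κ (4 * B)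
    have h2 := Nat.mod_lt κ (by omega : 4 * B > 0)
    rw [← hn] at h1
    rw [add_mul, one_mul, mul_comm n]
    omega
  have hn1 : 1 ≤ n := by
    by_contra h0
    have : n = 0 := by omega
    rw [this] at hdiv2
    omega
  rw [← hn] at ha
  have hn4 : 4 * n ≤ κ := by
    calc 4 * n = n * 4 := mul_comm _ _
      _ ≤ n * (4 * B) := Nat.mul_le_mul_left n (by omega)
      _ ≤ κ := hdiv
  have haκ : a ≤ κ := by omega
  have hak0 : k0 ≤ a := by omega
  -- the parameter `u = m ^ c`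
  set c : ℝ := 1 / (4 * B) with hc
  have hc0 : 0 < c := by rw [hc]; positivity
  have hc1 : c ≤ 1 := by
    rw [hc, div_le_one (by positivity)]
    have : (1 : ℝ) ≤ B := by exact_mod_cast hB
    linarith
  set u : ℝ := (m : ℝ) ^ c with hu
  have hu0 : 0 < u := by rw [hu]; positivity
  have hu4 : u ^ (4 * B) = m := by
    rw [hu, ← Real.rpow_natCast, ← Real.rpow_mul hmR.le, hc]
    push_cast
    rw [one_div, inv_mul_cancel₀ (by positivity), Real.rpow_one]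
  have hDl : D * l ≤ m := by
    have h1 : (D : ℝ) * (k0 : ℝ) ^ 4 ≤ 2 ^ k0 := hK2 k0 hk2
    have h2 : D * k0 ^ 4 ≤ 2 ^ k0 := by exact_mod_cast h1
    calc D * l ≤ D * k0 ^ 4 := Nat.mul_le_mul_left D h.l_le
      _ ≤ 2 ^ k0 := h2
      _ ≤ A ^ k0 := Nat.pow_le_pow_left hA k0
      _ ≤ A ^ (2 * k0) := Nat.pow_le_pow_right (by omega) (by omega)
      _ ≤ m := hm1
  have hbox := one_box (a := a) (κ := κ) (m := m) (θ := 1 / (8 * B)) (c := c) hg h hA hρ hG
    (by omega) hak0 haκ hκ4 hκ1 hDl (by positivity) (by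
      have h1 : ((κ : ℝ)) - a = n := by
        rw [ha, Nat.cast_sub (by omega)]; ring
      rw [h1, div_mul_eq_mul_div, one_mul, div_le_iff₀ (by positivity)]
      have h2 : κ ≤ n * (8 * B) := by nlinarith
      exact_mod_cast h2) hc0 (by
      rw [le_div_iff₀ (by positivity)]; linarith) (by
      rw [hc, div_mul_div_comm, one_mul, le_div_iff₀ (by positivity)]
      nlinarith) z
  have hpow : (2 * m : ℝ) ^ (2 + c) ≤ (2 * m : ℝ) ^ 2 * (2 * u) := by
    rw [Real.rpow_add (by positivity), Real.rpow_two]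
    refine mul_le_mul_of_nonneg_left ?_ (by positivity)
    rw [Real.mul_rpow (by norm_num) hmR.le]
    refine mul_le_mul_of_nonneg_right ?_ hu0.le
    calc (2 : ℝ) ^ c ≤ (2 : ℝ) ^ (1 : ℝ) := Real.rpow_le_rpow_of_exponent_le (by norm_num) hc1
      _ = 2 := Real.rpow_one 2
  have hC0 := one_le_C0
  refine up_num hA hB hρ hm0 hu0 hu4 hm2 hκ1 hκ2 (by rw [ha, hn]) hκ4 hT ?_ (hbox.trans ?_)
    (Nat.cast_nonneg _)
  · have := hK1 k0 hk1
    calc (T * k0) ^ 2 = T ^ 2 * (k0 : ℝ) ^ 2 := by ring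
      _ ≤ _ := this
  · refine mul_le_mul_of_nonneg_left ?_ (Nat.cast_nonneg _)
    exact mul_le_mul_of_nonneg_left hpow (by positivity)

/-- **Choice of a level for a union of good blocks of a soft window.** -/
theorem level_win {D : ℕ} (hg : IPath D g) (h : SoftWin A B ρ ε r k0 l Nb g P q β)
    (hA : 0 < A) (hρ : 0 < ρ) {G : Finset ℕ} (hGne : G.Nonempty) {ε₁ θ s c : ℝ}
    (hG : ∀ j ∈ G, ∑ k ∈ Ico k0 (B * k0), 1 / (k : ℝ) *
      av (P k) (fun p => H416.rel r q g l p j) ≤ ε₁)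
    {a b : ℕ} (ha1 : 1 ≤ a) (ha : k0 ≤ a) (hab : a ≤ b) (hb : b ≤ B * k0) (hθ : 0 < θ)
    (hθ2 : θ * b ≤ b - a) (hs : 0 < s) (hc : 0 < c) (h1 : 4 * ε₁ ≤ θ * s) (h2 : 4 * ε ≤ θ * c) :
    ∃ k ∈ Ico a b, ∃ P' ⊆ P k, (P k).card ≤ 2 * P'.card ∧ ∀ p ∈ P',
      (p : ℝ) * ∑ w ∈ G.biUnion (pts g l), qa r q p w ≤ s * (G.biUnion (pts g l)).card ∧
        β p ≤ c := by
  classical
  have hsub : Ico a b ⊆ Ico k0 (B * k0) := by
    intro k hk
    rw [Finset.mem_Ico] at hk ⊢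
    omega
  have hb0 : (0 : ℝ) < b := by
    have : 0 < b := by omega
    exact_mod_cast this
  have hl := h.l_pos
  have hθ3 : θ ≤ ∑ k ∈ Ico a b, (1 : ℝ) / k := by
    refine le_trans ?_ (sum_inv_ge ha1 hab)
    rw [le_div_iff₀ hb0]
    linarith
  obtain ⟨k, hk, P', hP', hc', h5⟩ := select (r := r) (q := q) (S := Ico a b) (P := P)
    (fun k hk => SoftWin.ne h hA hρ (hsub hk))
    (fun k hk p hp c => h.nonneg k (hsub hk) p hp c) (β := β)
    (fun k hk p hp => (h.beta k (hsub hk) p hp).1) hθ hθ3 hs hc hGne (pts := pts g l) (l := l)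
    (ε₁ := ε₁) (ε₂ := ε) (fun j hj => by
      have h3 := hG j hj
      have h4 : lav (Ico k0 (B * k0)) P (rel r q l (pts g l j)) ≤ ε₁ := by
        rw [lav_eq]
        refine le_trans (le_of_eq ?_) h3
        refine Finset.sum_congr rfl (fun k _ => ?_)
        congr 2
        funext p
        exact rel_eq hg.inj r q l j p
      refine (lav_mono_set hsub P ?_).trans h4
      intro k hk p hp
      exact mul_nonneg (by positivity) (Finset.sum_nonneg (fun w _ => h.nonneg k hk p hp _)))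
    (by
      refine (lav_mono_set hsub P (fun k hk p hp => (h.beta k hk p hp).1)).trans ?_
      rw [lav_eq]
      exact h.avbeta) h1 h2
  refine ⟨k, hk, P', hP', hc', fun p hp => ⟨?_, (h5 p hp).2⟩⟩
  have h6 := (h5 p hp).1
  have h7 := mass_union (r := r) (q := q) (B := G) (pts := pts g l) (l := l) (by omega)
    (fun j _ j' _ hne => disj_pts hg.inj hne) (p := p)
  have h8 := card_union (B := G) (pts := pts g l) (l := l) (fun j _ => card_pts hg.inj l j)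
    (fun j _ j' _ hne => disj_pts hg.inj hne)
  have hl0 : (0 : ℝ) ≤ l := Nat.cast_nonneg _
  calc (p : ℝ) * ∑ w ∈ G.biUnion (pts g l), qa r q p w
      = l * ∑ j ∈ G, rel r q l (pts g l j) p := h7
    _ ≤ l * (s * G.card) := mul_le_mul_of_nonneg_left h6 hl0
    _ = s * (G.biUnion (pts g l)).card := by rw [h8]; push_cast; ring

/-- the union of blocks as the image of a product -/
theorem biUnion_pts (g : ℕ → ℤ × ℤ) (l : ℕ) (G : Finset ℕ) :
    G.biUnion (pts g l) = (G ×ˢ range l).image (fun x => g (x.1 * l + x.2)) := by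
  ext w
  simp only [Finset.mem_biUnion, mem_pts, Finset.mem_image, Finset.mem_product, Finset.mem_range,
    Prod.exists]
  constructor
  · rintro ⟨j, hj, i, hi, rfl⟩
    exact ⟨j, i, ⟨hj, hi⟩, rfl⟩
  · rintro ⟨j, i, ⟨hj, hi⟩, rfl⟩
    exact ⟨j, hj, i, hi, rfl⟩

end Vale.Agent.P015.H586
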